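import Vale.Agent.P333.Final

open Vale.Agent.P333 Turing

theorem Vale.Agent.Results.P333.A_two.result :
    ∃ (f : List (List ℕ) → List ℕ)
      (M : TM2ComputableInPolyTime (bList (bList bNat)) (bList bNat) f),
      (∀ k, Finite (M.tm.Γ k)) ∧ ∀ S : List (List ℕ), (∀ s ∈ S, s <:+: f S) ∧
        ∀ T : List ℕ, (∀ s ∈ S, s <:+: T) → (f S).length ≤ 2 * T.length :=
  two_approx
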